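import Mathlib

/-!
# P284, theorem TAN, row R3 (helper730): limits of `C¹` functions whose derivatives converge in `L¹` satisfy
the fundamental theorem of calculus on almost every segment
-/

open MeasureTheory Filter Set Metric Topology
open scoped ENNReal

noncomputable section

namespace Vale.Agent.P284.H730.TAN

variable {E : Type*} [NormedAddCommGroup E] [NormedSpace ℝ E] [FiniteDimensional ℝ E]
  [MeasurableSpace E] [BorelSpace E] {μ : Measure E} [μ.IsAddHaarMeasure]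

theorem seg_inner (D : E → ℝ≥0∞) (hD : Measurable D) (h : E) :
    ∫⁻ x, (∫⁻ s in Ioc (0 : ℝ) 1, D (x + s • h)) ∂μ = ∫⁻ x, D x ∂μ := by
  rw [lintegral_lintegral_swap]
  · simp_rw [lintegral_add_right_eq_self (μ := μ) D]
    simp
  · exact (hD.comp (by fun_prop)).aemeasurable

theorem seg_outer (D : E → ℝ≥0∞) (hD : Measurable D) (S : Set E) :
    ∫⁻ x, (∫⁻ h in S, (∫⁻ s in Ioc (0 : ℝ) 1, D (x + s • h)) ∂μ) ∂μ = μ S * ∫⁻ x, D x ∂μ := by
  rw [lintegral_lintegral_swap]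
  · simp_rw [seg_inner D hD]
    simp [mul_comm]
  · have h1 : Measurable fun q : (E × E) × ℝ => D (q.1.1 + q.2 • q.1.2) :=
      hD.comp (by fun_prop)
    exact (h1.lintegral_prod_right' (ν := volume.restrict (Ioc (0 : ℝ) 1))).aemeasurable

/-- the fundamental theorem of calculus on a segment for the limit -/
theorem seg_point {S : Set E} (hS : Convex ℝ S) {f : ℕ → E → ℝ} (hf : ∀ k, ContDiff ℝ 1 (f k)) {u : E → ℝ}
    (hu : ∀ x ∈ S, Tendsto (fun k => f k x) atTop (𝓝 (u x)))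
    {G : E → E →L[ℝ] ℝ} (hG : Measurable G) {φ : ℕ → ℕ} (hφ : Tendsto φ atTop atTop) {x h : E}
    (hx : x ∈ S) (hxh : x + h ∈ S)
    (hlim : Tendsto (fun j => ∫⁻ s in Ioc (0 : ℝ) 1,
      S.indicator (fun y => ‖fderiv ℝ (f (φ j)) y - G y‖ₑ) (x + s • h)) atTop (𝓝 0)) :
    IntegrableOn (fun s : ℝ => G (x + s • h)) (Ioc 0 1) ∧
      u (x + h) - u x = ∫ s in (0 : ℝ)..1, G (x + s • h) h := by
  have hseg : ∀ s ∈ Ioc (0 : ℝ) 1, x + s • h ∈ S := by
    intro s hs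
    have h1 := hS.add_smul_mem hx hxh (t := s) ⟨hs.1.le, hs.2⟩
    exact h1
  have hl : ∀ j, ∫⁻ s in Ioc (0 : ℝ) 1,
      S.indicator (fun y => ‖fderiv ℝ (f (φ j)) y - G y‖ₑ) (x + s • h) =
      ∫⁻ s in Ioc (0 : ℝ) 1, ‖fderiv ℝ (f (φ j)) (x + s • h) - G (x + s • h)‖ₑ := by
    intro j
    refine setLIntegral_congr_fun measurableSet_Ioc fun s hs => ?_
    simp only [indicator_of_mem (hseg s hs)]
  simp only [hl] at hlim
  have hGm : Measurable fun s : ℝ => G (x + s • h) := hG.comp (by fun_prop)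
  have hcont : ∀ k, Continuous fun s : ℝ => fderiv ℝ (f k) (x + s • h) := by
    intro k
    exact ((hf k).continuous_fderiv one_ne_zero).comp (by fun_prop)
  have hfi : ∀ k, IntegrableOn (fun s : ℝ => fderiv ℝ (f k) (x + s • h)) (Ioc 0 1) := by
    intro k
    exact ((hcont k).integrableOn_Icc).mono_set Ioc_subset_Icc_self
  obtain ⟨j₀, hj₀⟩ := (hlim.eventually (gt_mem_nhds (zero_lt_one' ℝ≥0∞))).exists
  have hdi : IntegrableOn (fun s : ℝ => fderiv ℝ (f (φ j₀)) (x + s • h) - G (x + s • h))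
      (Ioc 0 1) := by
    refine ⟨((hcont _).measurable.sub hGm).aestronglyMeasurable, ?_⟩
    rw [hasFiniteIntegral_iff_enorm]
    exact hj₀.trans ENNReal.one_lt_top
  have hGi : IntegrableOn (fun s : ℝ => G (x + s • h)) (Ioc 0 1) := by
    have h1 := (hfi (φ j₀)).sub hdi
    refine h1.congr (Eventually.of_forall fun s => ?_)
    simp
  refine ⟨hGi, ?_⟩
  have happ : ∀ {A : ℝ → E →L[ℝ] ℝ}, IntegrableOn A (Ioc 0 1) →
      ∫ s in (0 : ℝ)..1, A s h = (∫ s in Ioc (0 : ℝ) 1, A s) h := by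
    intro A hA
    rw [intervalIntegral.integral_of_le zero_le_one]
    exact (ContinuousLinearMap.integral_apply hA h).symm
  have hftc : ∀ k, f k (x + h) - f k x = ∫ s in (0 : ℝ)..1, fderiv ℝ (f k) (x + s • h) h := by
    intro k
    have h1 : ∀ s ∈ uIcc (0 : ℝ) 1, HasDerivAt (fun s : ℝ => f k (x + s • h))
        (fderiv ℝ (f k) (x + s • h) h) s := by
      intro s _
      have h2 : HasFDerivAt (f k) (fderiv ℝ (f k) (x + s • h)) (x + s • h) :=
        (((hf k).differentiable one_ne_zero) _).hasFDerivAt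
      have h3 : HasDerivAt (fun s : ℝ => x + s • h) h s := by
        simpa using ((hasDerivAt_id s).smul_const h).const_add x
      exact h2.comp_hasDerivAt s h3
    have h4 := intervalIntegral.integral_eq_sub_of_hasDerivAt h1
      (((hcont k).clm_apply continuous_const).intervalIntegrable _ _)
    rw [h4]
    simp
  -- limit
  have hlim2 : Tendsto (fun j => ∫ s in Ioc (0 : ℝ) 1, fderiv ℝ (f (φ j)) (x + s • h)) atTop
      (𝓝 (∫ s in Ioc (0 : ℝ) 1, G (x + s • h))) := by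
    refine tendsto_integral_of_L1 _ hGi.1 (Eventually.of_forall fun j => hfi (φ j)) ?_
    exact hlim
  have hlim3 : Tendsto (fun j => f (φ j) (x + h) - f (φ j) x) atTop
      (𝓝 ((∫ s in Ioc (0 : ℝ) 1, G (x + s • h)) h)) := by
    have h5 : ∀ j, f (φ j) (x + h) - f (φ j) x
        = (∫ s in Ioc (0 : ℝ) 1, fderiv ℝ (f (φ j)) (x + s • h)) h := by
      intro j
      rw [hftc, happ (hfi (φ j))]
    simp only [h5]
    exact ((ContinuousLinearMap.apply ℝ ℝ h).continuous.tendsto _).comp hlim2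
  have hlim4 := ((hu _ hxh).comp hφ).sub ((hu _ hx).comp hφ)
  rw [happ hGi]
  exact tendsto_nhds_unique hlim4 hlim3

/-- **R3** -/
theorem r3 {S : Set E} (hS : Convex ℝ S) (hSm : MeasurableSet S) {f : ℕ → E → ℝ}
    (hf : ∀ k, ContDiff ℝ 1 (f k)) {u : E → ℝ}
    (hu : ∀ x ∈ S, Tendsto (fun k => f k x) atTop (𝓝 (u x)))
    {G : E → E →L[ℝ] ℝ} (hG : StronglyMeasurable G)
    (hL : Tendsto (fun k => ∫⁻ x in S, ‖fderiv ℝ (f k) x - G x‖ₑ ∂μ) atTop (𝓝 0)) :
    ∀ᵐ x ∂μ, ∀ᵐ h ∂μ, x ∈ S → x + h ∈ S →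
      IntegrableOn (fun s : ℝ => G (x + s • h)) (Ioc 0 1) ∧
        u (x + h) - u x = ∫ s in (0 : ℝ)..1, G (x + s • h) h := by
  -- a fast subsequence
  obtain ⟨φ, hφ, hφ2⟩ : ∃ φ : ℕ → ℕ, StrictMono φ ∧
      ∀ j, ∫⁻ x in S, ‖fderiv ℝ (f (φ j)) x - G x‖ₑ ∂μ ≤ (2⁻¹ : ℝ≥0∞) ^ j := by
    have h1 : ∀ j : ℕ, ∀ᶠ k in atTop,
        ∫⁻ x in S, ‖fderiv ℝ (f k) x - G x‖ₑ ∂μ ≤ (2⁻¹ : ℝ≥0∞) ^ j := by
      intro j
      refine hL.eventually (eventually_le_nhds ?_)
      exact ENNReal.pow_pos (by simp) j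
    exact extraction_forall_of_eventually h1
  set D : ℕ → E → ℝ≥0∞ := fun j => S.indicator fun y => ‖fderiv ℝ (f (φ j)) y - G y‖ₑ with hD
  have hDm : ∀ j, Measurable (D j) := by
    intro j
    refine Measurable.indicator ?_ hSm
    exact ((((hf (φ j)).continuous_fderiv one_ne_zero).measurable).sub hG.measurable).enorm
  have hDi : ∀ j, ∫⁻ x, D j x ∂μ ≤ (2⁻¹ : ℝ≥0∞) ^ j := by
    intro j
    rw [hD, lintegral_indicator hSm]
    exact hφ2 j
  have hm1 : ∀ j, Measurable fun q : E × E => ∫⁻ s in Ioc (0 : ℝ) 1, D j (q.1 + s • q.2) := by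
    intro j
    have h1 : Measurable fun q : (E × E) × ℝ => D j (q.1.1 + q.2 • q.1.2) :=
      (hDm j).comp (by fun_prop)
    exact h1.lintegral_prod_right' (ν := volume.restrict (Ioc (0 : ℝ) 1))
  have key : ∀ m : ℕ, ∀ᵐ x ∂μ, ∀ᵐ h ∂(μ.restrict (ball (0 : E) m)),
      ∑' j, ∫⁻ s in Ioc (0 : ℝ) 1, D j (x + s • h) < ⊤ := by
    intro m
    have h1 : ∫⁻ x, (∫⁻ h in ball (0 : E) m, (∑' j, ∫⁻ s in Ioc (0 : ℝ) 1, D j (x + s • h)) ∂μ) ∂μ
        ≤ μ (ball (0 : E) m) * 2 := by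
      calc ∫⁻ x, (∫⁻ h in ball (0 : E) m, (∑' j, ∫⁻ s in Ioc (0 : ℝ) 1, D j (x + s • h)) ∂μ) ∂μ
          = ∫⁻ x, (∑' j, ∫⁻ h in ball (0 : E) m,
              (∫⁻ s in Ioc (0 : ℝ) 1, D j (x + s • h)) ∂μ) ∂μ := by
            refine lintegral_congr fun x => ?_
            exact lintegral_tsum fun j =>
              ((hm1 j).comp (measurable_prodMk_left (x := x))).aemeasurable
        _ = ∑' j, ∫⁻ x, (∫⁻ h in ball (0 : E) m,
              (∫⁻ s in Ioc (0 : ℝ) 1, D j (x + s • h)) ∂μ) ∂μ := by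
            refine lintegral_tsum fun j => ?_
            exact ((hm1 j).lintegral_prod_right' (ν := μ.restrict (ball (0 : E) m))).aemeasurable
        _ = ∑' j, μ (ball (0 : E) m) * ∫⁻ x, D j x ∂μ := by
            refine tsum_congr fun j => ?_
            exact seg_outer (D j) (hDm j) _
        _ ≤ ∑' j, μ (ball (0 : E) m) * (2⁻¹ : ℝ≥0∞) ^ j :=
            ENNReal.tsum_le_tsum fun j => mul_le_mul_right (hDi j) _
        _ = μ (ball (0 : E) m) * 2 := by
            rw [ENNReal.tsum_mul_left, ENNReal.tsum_geometric]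
            norm_num
    have h2 : μ (ball (0 : E) m) * 2 ≠ ⊤ := ENNReal.mul_ne_top measure_ball_lt_top.ne (by simp)
    have hmt : Measurable fun q : E × E => ∑' j, ∫⁻ s in Ioc (0 : ℝ) 1, D j (q.1 + s • q.2) :=
      Measurable.tsum hm1
    have h3 := ae_lt_top (μ := μ)
      (f := fun x => ∫⁻ h in ball (0 : E) m, (∑' j, ∫⁻ s in Ioc (0 : ℝ) 1, D j (x + s • h)) ∂μ)
      (hmt.lintegral_prod_right' (ν := μ.restrict (ball (0 : E) m)))
      (ne_top_of_le_ne_top h2 h1)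
    filter_upwards [h3] with x hx
    exact ae_lt_top (hmt.comp (measurable_prodMk_left (x := x))) hx.ne
  have key2 := ae_all_iff.2 key
  filter_upwards [key2] with x hx
  have hx2 : ∀ m : ℕ, ∀ᵐ h ∂μ, h ∈ ball (0 : E) m →
      ∑' j, ∫⁻ s in Ioc (0 : ℝ) 1, D j (x + s • h) < ⊤ := fun m =>
    (ae_restrict_iff' measurableSet_ball).1 (hx m)
  filter_upwards [ae_all_iff.2 hx2] with h hh hxS hxhS
  obtain ⟨m, hm⟩ := exists_nat_gt ‖h‖
  have hfin := hh m (by simpa using hm)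
  exact seg_point hS hf hu hG.measurable hφ.tendsto_atTop hxS hxhS
    (ENNReal.tendsto_atTop_zero_of_tsum_ne_top hfin.ne)

end Vale.Agent.P284.H730.TAN
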