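import Mathlib

/-!
# P284, theorem TAN (helper730, second source): sub-mean inequality on balls
-/

open MeasureTheory Filter Set Metric Topology
open scoped ENNReal Real

noncomputable section

namespace Vale.Agent.P284.H730.TAN

/-- the unit circle acts on `ℂⁿ` by measure preserving maps -/
theorem rot_mp (n : ℕ) (θ : ℝ) :
    MeasurePreserving (fun b : Fin n → ℂ => circleMap 0 1 θ • b) volume volume := by
  have h1 : MeasurePreserving (fun z : ℂ => circleMap 0 1 θ * z) volume volume := by
    have h2 : MeasurePreserving (rotation (Circle.exp θ)) (volume : Measure ℂ) volume :=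
      LinearIsometryEquiv.measurePreserving _
    have h3 : (fun z : ℂ => circleMap 0 1 θ * z) = rotation (Circle.exp θ) := by
      funext z
      rw [rotation_apply, Circle.coe_exp]
      simp [circleMap]
    rw [h3]
    exact h2
  exact volume_preserving_pi fun _ : Fin n => h1

theorem meas_ind {n : ℕ} {Ω : Set (Fin n → ℂ)} (hΩ : IsOpen Ω) {u : (Fin n → ℂ) → ℝ}
    (husc : ∀ z ∈ Ω, UpperSemicontinuousAt u z) : Measurable (Ω.indicator u) := by
  refine measurable_of_Iio fun a => ?_
  have h1 : Ω.indicator u ⁻¹' Iio a = {z | z ∈ Ω ∧ u z < a} ∪ (Ωᶜ ∩ {_z | (0 : ℝ) < a}) := by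
    ext z
    by_cases hz : z ∈ Ω
    · simp [hz]
    · simp [hz]
  rw [h1]
  refine MeasurableSet.union ?_ (hΩ.measurableSet.compl.inter (MeasurableSet.const _))
  refine IsOpen.measurableSet ?_
  rw [isOpen_iff_mem_nhds]
  rintro z ⟨hz, hza⟩
  filter_upwards [hΩ.mem_nhds hz, husc z hz a hza] with y h2 h3
  exact ⟨h2, h3⟩

theorem ball_mean {n : ℕ} {Ω : Set (Fin n → ℂ)} (hΩ : IsOpen Ω) {u : (Fin n → ℂ) → ℝ}
    (hb : ∃ B, ∀ z, |u z| ≤ B) (husc : ∀ z ∈ Ω, UpperSemicontinuousAt u z)
    (hsub : ∀ (c b : Fin n → ℂ) (ρ : ℝ), 0 < ρ → (∀ ζ ∈ closedBall (0 : ℂ) ρ, c + ζ • b ∈ Ω) →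
      u c ≤ Real.circleAverage (fun ζ : ℂ => u (c + ζ • b)) 0 ρ)
    {c : Fin n → ℂ} {r : ℝ} (hr : 0 < r) (hc : ball c r ⊆ Ω) : u c ≤ ⨍ z in ball c r, u z := by
  obtain ⟨B, hB⟩ := hb
  set v := Ω.indicator u with hv
  have hvm : Measurable v := meas_ind hΩ husc
  have hvB : ∀ z, |v z| ≤ B := by
    intro z
    by_cases hz : z ∈ Ω
    · rw [hv, indicator_of_mem hz]; exact hB z
    · rw [hv, indicator_of_notMem hz, abs_zero]; exact (abs_nonneg _).trans (hB z)
  have hfin : volume (ball (0 : Fin n → ℂ) r) < ⊤ := measure_ball_lt_top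
  have hpos : 0 < volume (ball (0 : Fin n → ℂ) r) := measure_ball_pos volume _ hr
  have hin : ∀ b ∈ ball (0 : Fin n → ℂ) r, ∀ ζ ∈ closedBall (0 : ℂ) 1, c + ζ • b ∈ Ω := by
    intro b hb ζ hζ
    refine hc ?_
    rw [mem_ball_zero_iff] at hb
    rw [mem_closedBall_zero_iff] at hζ
    rw [mem_ball, dist_eq_norm, add_sub_cancel_left, norm_smul]
    nlinarith [norm_nonneg b, norm_nonneg ζ]
  -- the inequality on every complex line
  have h1 : ∀ b ∈ ball (0 : Fin n → ℂ) r,
      u c ≤ (2 * π)⁻¹ * ∫ θ in (0 : ℝ)..2 * π, v (c + circleMap 0 1 θ • b) := by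
    intro b hb
    refine (hsub c b 1 one_pos (hin b hb)).trans_eq ?_
    rw [Real.circleAverage, smul_eq_mul]
    congr 1
    refine intervalIntegral.integral_congr fun θ _ => ?_
    have : c + circleMap 0 1 θ • b ∈ Ω := hin b hb _ (by simp)
    simp only [hv, indicator_of_mem this]
  have hcm : Measurable fun q : (Fin n → ℂ) × ℝ => v (c + circleMap 0 1 q.2 • q.1) := by
    refine hvm.comp ?_
    have : Continuous fun q : (Fin n → ℂ) × ℝ => c + circleMap 0 1 q.2 • q.1 := by
      have := continuous_circleMap 0 1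
      fun_prop
    exact this.measurable
  have hint : Integrable (fun q : (Fin n → ℂ) × ℝ => v (c + circleMap 0 1 q.2 • q.1))
      ((volume.restrict (ball (0 : Fin n → ℂ) r)).prod (volume.restrict (Ioc (0 : ℝ) (2 * π)))) := by
    have : IsFiniteMeasure (volume.restrict (ball (0 : Fin n → ℂ) r)) := ⟨by simpa using hfin⟩
    refine Integrable.of_bound hcm.aestronglyMeasurable B (Eventually.of_forall fun q => ?_)
    rw [Real.norm_eq_abs]
    exact hvB _
  have h2 : volume.real (ball (0 : Fin n → ℂ) r) * u c ≤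
      ∫ b in ball (0 : Fin n → ℂ) r, (2 * π)⁻¹ * ∫ θ in (0 : ℝ)..2 * π,
        v (c + circleMap 0 1 θ • b) := by
    have h3 : ∫ _b in ball (0 : Fin n → ℂ) r, u c = volume.real (ball (0 : Fin n → ℂ) r) * u c := by
      rw [setIntegral_const, smul_eq_mul]
    rw [← h3]
    refine setIntegral_mono_on (integrableOn_const hfin.ne) ?_ measurableSet_ball h1
    refine Integrable.const_mul ?_ _
    simp only [intervalIntegral.integral_of_le Real.two_pi_pos.le]
    exact hint.integral_prod_left
  have h4 : ∫ b in ball (0 : Fin n → ℂ) r, (2 * π)⁻¹ * ∫ θ in (0 : ℝ)..2 * π,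
        v (c + circleMap 0 1 θ • b) = ∫ b in ball (0 : Fin n → ℂ) r, v (c + b) := by
    rw [integral_const_mul]
    simp only [intervalIntegral.integral_of_le Real.two_pi_pos.le]
    rw [integral_integral_swap hint]
    have h5 : ∀ θ : ℝ, ∫ b in ball (0 : Fin n → ℂ) r, v (c + circleMap 0 1 θ • b) =
        ∫ b in ball (0 : Fin n → ℂ) r, v (c + b) := by
      intro θ
      have hne : circleMap 0 1 θ ≠ 0 := by simp
      have hemb : MeasurableEmbedding fun b : Fin n → ℂ => circleMap 0 1 θ • b :=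
        (Homeomorph.smulOfNeZero (circleMap 0 1 θ) hne).measurableEmbedding
      have h6 := (rot_mp n θ).setIntegral_preimage_emb hemb (fun b => v (c + b))
        (ball (0 : Fin n → ℂ) r)
      have h7 : (fun b : Fin n → ℂ => circleMap 0 1 θ • b) ⁻¹' ball (0 : Fin n → ℂ) r =
          ball (0 : Fin n → ℂ) r := by
        ext b
        simp [norm_smul]
      rw [h7] at h6
      exact h6
    simp only [h5]
    rw [setIntegral_const, smul_eq_mul, Real.volume_real_Ioc_of_le Real.two_pi_pos.le, sub_zero,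
      ← mul_assoc, inv_mul_cancel₀ Real.two_pi_pos.ne', one_mul]
  have h8 : ∫ b in ball (0 : Fin n → ℂ) r, v (c + b) = ∫ z in ball c r, u z := by
    have h9 : ∫ z in ball c r, u z = ∫ z in ball c r, v z :=
      setIntegral_congr_fun measurableSet_ball fun z hz => by
        simp only [hv, indicator_of_mem (hc hz)]
    rw [h9]
    have h10 := (measurePreserving_add_left (volume : Measure (Fin n → ℂ)) c).setIntegral_preimage_emb
      (Homeomorph.addLeft c).measurableEmbedding v (ball c r)
    have h11 : (fun x => c + x) ⁻¹' ball c r = ball (0 : Fin n → ℂ) r := by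
      ext b
      simp [dist_eq_norm]
    rw [h11] at h10
    exact h10
  have hvol : volume.real (ball c r) = volume.real (ball (0 : Fin n → ℂ) r) := by
    rw [measureReal_def, measureReal_def, Measure.addHaar_ball_center]
  have hvp : 0 < volume.real (ball (0 : Fin n → ℂ) r) :=
    ENNReal.toReal_pos hpos.ne' hfin.ne
  rw [setAverage_eq, hvol, smul_eq_mul, ← h8, ← h4]
  rw [← div_eq_inv_mul, le_div_iff₀ hvp, mul_comm]
  exact h2

end Vale.Agent.P284.H730.TAN
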